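import Vale.Agent.P352R.Le.Net

/-!
# P352R, block Tw: the energy bounds the momentum (helper89)
-/

set_option linter.all false

noncomputable section

namespace Vale.Agent.P352R.Tw

open P352 GF P352.H246 P352X.EG.Wb MeasureTheory Filter Topology

variable {D : Type*} [NormedAddCommGroup D] [InnerProductSpace ℂ D] {Q : Theory D}

theorem q_lim (R : Dr Q) (m : Ix) (v : D) : Tendsto (fun n : ℕ =>
    (((n : ℝ) + 1) * ‖Q.U 1 GF.one (bas m (1 / ((n : ℝ) + 1))) v - v‖) ^ 2) atTop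
      (𝓝 (‖Dv Q m v‖ ^ 2)) := by
  have a := (hasDerivAt_iff_tendsto_slope_zero.1 (R m v)).comp
    (tendsto_nhdsWithin_iff.2 ⟨tendsto_one_div_add_atTop_nhds_zero_nat (𝕜 := ℝ),
      .of_forall fun n => (Nat.one_div_pos_of_nat (α := ℝ)).ne'⟩)
  refine (a.norm.pow 2).congr fun n => ?_
  simp only [Function.comp_apply, zero_add, zero_smul, norm_smul, bas_eq, one_div, inv_inv]
  rw [show U1 Q 0 v = v from H755.Uone v, Real.norm_of_nonneg (by positivity)]

theorem cs_le (x : ℝ) : 2 - 2 * Real.cos x ≤ x ^ 2 := by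
  linarith [Real.one_sub_sq_div_two_le_cos (x := x)]

theorem cs_lim (x : ℝ) : Tendsto (fun n : ℕ =>
    ((n : ℝ) + 1) ^ 2 * (2 - 2 * Real.cos (x * (1 / ((n : ℝ) + 1))))) atTop (𝓝 (x ^ 2)) := by
  have d : HasDerivAt (fun t : ℝ => Real.sin (x / 2 * t)) (x / 2) 0 := by
    simpa using ((hasDerivAt_id (0 : ℝ)).const_mul (x / 2)).sin
  have a := (hasDerivAt_iff_tendsto_slope_zero.1 d).comp
    (tendsto_nhdsWithin_iff.2 ⟨tendsto_one_div_add_atTop_nhds_zero_nat (𝕜 := ℝ),
      .of_forall fun n => (Nat.one_div_pos_of_nat (α := ℝ)).ne'⟩)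
  have b := (a.const_mul 2).pow 2
  rw [show 2 * (x / 2) = x by ring] at b
  refine b.congr fun n => ?_
  simp only [Function.comp_apply, zero_add, mul_zero, Real.sin_zero, sub_zero, smul_eq_mul,
    one_div, inv_inv]
  rw [show x * ((n : ℝ) + 1)⁻¹ = 2 * (x / 2 * ((n : ℝ) + 1)⁻¹) by ring, Real.cos_two_mul,
    Real.cos_sq']
  ring

theorem dv_le (R : Dr Q) (m : Ix) (v : D) : ‖Dv Q m v‖ ≤ ‖Dv Q o v‖ := by
  obtain ⟨ν, _, sp, e⟩ := Q.spectrum v
  have md (p : V) (m : Ix) (t : ℝ) : GF.mdot p (bas m t) = eta m * p m * t := by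
    rw [GF.mdot, Finset.sum_eq_single m (fun b _ hb => by simp [bas, hb]) (by simp)]
    simp [bas]
  have ct (m : Ix) (t : ℝ) : Continuous fun p : V => 2 - 2 * Real.cos (eta m * p m * t) := by
    fun_prop
  have it (m : Ix) (t : ℝ) : Integrable (fun p : V => Real.cos (eta m * p m * t)) ν :=
    (integrable_const (1 : ℝ)).mono' (by fun_prop : Continuous _).aestronglyMeasurable
      (.of_forall fun p => Real.abs_cos_le_one _)
  have re (m : Ix) (t : ℝ) : RCLike.re (inner ℂ v (Q.U 1 GF.one (bas m t) v) : ℂ) =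
      ∫ p, Real.cos (eta m * p m * t) ∂ν := by
    rw [e, ← integral_re]
    · refine integral_congr_ae (.of_forall fun p => ?_)
      show (Complex.exp _).re = _
      rw [md, mul_comm, Complex.exp_ofReal_mul_I_re]
    · refine (integrable_const (1 : ℝ)).mono' (Continuous.aestronglyMeasurable ?_)
        (.of_forall fun p => ?_)
      · simp only [md]
        fun_prop
      · rw [mul_comm, Complex.norm_exp_ofReal_mul_I]
  have nv : ‖v‖ ^ 2 = ∫ _, (1 : ℝ) ∂ν := by
    have := re o 0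
    rw [show bas o 0 = 0 from funext fun n => by simp [bas], H755.Uone,
      inner_self_eq_norm_sq] at this
    simpa using this
  have sq (m : Ix) (t : ℝ) : ‖Q.U 1 GF.one (bas m t) v - v‖ ^ 2 =
      ∫ p, (2 - 2 * Real.cos (eta m * p m * t)) ∂ν := by
    rw [norm_sub_rev, norm_sub_sq (𝕜 := ℂ), re, U_nrm0 one_pos isLor_one, nv,
      integral_sub (integrable_const _) ((it m t).const_mul 2), integral_const_mul]
    simp only [integral_const, smul_eq_mul]
    ring
  have nn (x : ℝ) : 0 ≤ 2 - 2 * Real.cos x := by linarith [Real.cos_le_one x]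
  have li (m : Ix) (n : ℕ) : ENNReal.ofReal ((((n : ℝ) + 1) *
      ‖Q.U 1 GF.one (bas m (1 / ((n : ℝ) + 1))) v - v‖) ^ 2) = ∫⁻ p, ENNReal.ofReal
        (((n : ℝ) + 1) ^ 2 * (2 - 2 * Real.cos (eta m * p m * (1 / ((n : ℝ) + 1))))) ∂ν := by
    rw [mul_pow, sq, ← integral_const_mul]
    exact ofReal_integral_eq_lintegral_ofReal
      (((integrable_const _).sub ((it m _).const_mul 2)).const_mul _)
      (.of_forall fun p => mul_nonneg (sq_nonneg _) (nn _))
  have f : ∫⁻ p, ENNReal.ofReal (p o ^ 2) ∂ν ≤ ENNReal.ofReal (‖Dv Q o v‖ ^ 2) := by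
    rw [← (ENNReal.tendsto_ofReal (q_lim R o v)).liminf_eq]
    simp only [li]
    refine le_trans (le_of_eq (lintegral_congr fun p => ?_)) (lintegral_liminf_le fun n =>
      ((continuous_const.mul (ct o _)).measurable).ennreal_ofReal)
    rw [(ENNReal.tendsto_ofReal (cs_lim (eta o * p o))).liminf_eq]
    simp [eta]
  have g : ENNReal.ofReal (‖Dv Q m v‖ ^ 2) ≤ ∫⁻ p, ENNReal.ofReal (p o ^ 2) ∂ν := by
    refine le_of_tendsto' (ENNReal.tendsto_ofReal (q_lim R m v)) fun n => ?_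
    rw [li]
    refine lintegral_mono_ae (sp.mono fun p h => ENNReal.ofReal_le_ofReal ?_)
    refine (mul_le_mul_of_nonneg_left (cs_le _) (sq_nonneg _)).trans ?_
    have h2 := h.2
    have z : ((n : ℝ) + 1) ^ 2 * (eta m * p m * (1 / ((n : ℝ) + 1))) ^ 2 = (eta m * p m) ^ 2 := by
      field_simp
    rw [z]
    simp only [GF.mdot, Fin.sum_univ_four, eta, o] at h2 ⊢
    fin_cases m <;> simp at h2 ⊢ <;> nlinarith [sq_nonneg (p 1), sq_nonneg (p 2), sq_nonneg (p 3)]
  exact abs_le_of_sq_le_sq' ((ENNReal.ofReal_le_ofReal_iff (sq_nonneg _)).1 (g.trans f))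
    (norm_nonneg _) |>.2

theorem anti (R : Dr Q) (m : Ix) (v w : D) : inner ℂ (Dv Q m v) w = -inner ℂ v (Dv Q m w) := by
  have a := (R m v).inner ℂ (R m w)
  simp only [U1_inner, zero_smul, show ∀ u, U1 Q 0 u = u from H755.Uone] at a
  linear_combination a.unique (hasDerivAt_const _ _)

theorem dv_cm (R : Dr Q) (m n : Ix) (v : D) : Dv Q m (Dv Q n v) = Dv Q n (Dv Q m v) :=
  ext_inner_left ℂ fun w => by
    have a := (hasDerivAt_const (0 : ℝ) w).inner ℂ (R n (Dv Q m v))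
    have b := (hasDerivAt_const (0 : ℝ) (Dv Q m w)).inner ℂ (R n v)
    simp only [← Dv_U R, inner_zero_left, add_zero] at a b
    simp only [anti R m] at b
    exact neg_injective (b.unique a.neg)

theorem k_le (R : Dr Q) (v : D) : ‖v‖ ≤ ‖v - Dv Q o v‖ ∧ ‖Dv Q o v‖ ≤ ‖v - Dv Q o v‖ := by
  have a : RCLike.re (inner ℂ v (Dv Q o v) : ℂ) = 0 := by
    have := congrArg Complex.re ((inner_conj_symm (𝕜 := ℂ) (Dv Q o v) v).trans (anti R o v v))
    rw [Complex.conj_re, Complex.neg_re] at this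
    show (inner ℂ v (Dv Q o v) : ℂ).re = 0
    linarith
  have := norm_sub_sq (𝕜 := ℂ) v (Dv Q o v)
  rw [a] at this
  exact ⟨(abs_le_of_sq_le_sq' (by nlinarith [sq_nonneg ‖Dv Q o v‖]) (norm_nonneg _)).2,
    (abs_le_of_sq_le_sq' (by nlinarith [sq_nonneg ‖v‖]) (norm_nonneg _)).2⟩

theorem en_le' (R : Dr Q) (k : ℕ) (v : D) : G.en Q k v ≤ 5 ^ k * ‖((1 - Le.dL R) ^ k) v‖ := by
  induction k generalizing v with
  | zero => simp [G.en]
  | succ k ih =>
    have c (m : Ix) (j : ℕ) (v : D) :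
        ((1 - Le.dL R) ^ j) (Dv Q m v) = Dv Q m (((1 - Le.dL R) ^ j) v) := by
      induction j with
      | zero => rfl
      | succ j h =>
        rw [pow_succ', Module.End.mul_apply, Module.End.mul_apply, h]
        generalize ((1 - Le.dL R) ^ j) v = u
        show Dv Q m u - Dv Q o (Dv Q m u) = DvA R m (u - Dv Q o u)
        rw [map_sub, dv_cm R o m]
        rfl
    have e : ((1 - Le.dL R) ^ (k + 1)) v = ((1 - Le.dL R) ^ k) v - Dv Q o (((1 - Le.dL R) ^ k) v) := by
      rw [pow_succ']; rfl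
    have p : (0 : ℝ) ≤ 5 ^ k := by positivity
    have h := k_le R (((1 - Le.dL R) ^ k) v)
    rw [← e] at h
    have s : ∑ m, G.en Q k (G.Dv Q m v) ≤ ∑ _m : Ix, 5 ^ k * ‖((1 - Le.dL R) ^ (k + 1)) v‖ :=
      Finset.sum_le_sum fun m _ => (ih _).trans (mul_le_mul_of_nonneg_left (by
        rw [show G.Dv Q m v = Dv Q m v from rfl, c]; exact (dv_le R m _).trans h.2) p)
    have := (ih v).trans (mul_le_mul_of_nonneg_left h.1 p)
    simp only [Finset.sum_const, Finset.card_univ, Fintype.card_fin, nsmul_eq_mul] at s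
    rw [G.en, pow_succ]
    push_cast at s
    linarith

/-- **the energy norms are bounded by the powers of the energy** -/
theorem en_le (R : Dr Q) (k : ℕ) : ∃ C : ℝ, 0 ≤ C ∧ ∀ v, G.en Q k v ≤ C * ‖((1 - Le.dL R) ^ k) v‖ :=
  ⟨_, by positivity, en_le' R k⟩

end Vale.Agent.P352R.Tw
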