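import Vale.Agent.P352R.Tw.Kl
import Vale.Agent.P352R.Br3
import Vale.Agent.P352X.EG.W
import Vale.Agent.P352X.R.JC.A2
import Vale.Agent.P352X.R.JC.B
import Vale.Agent.P352.BW.H820.Tk0
import Vale.Agent.P352.BW.T.Rs
import Vale.Agent.P352.BW.H118.Prod

/-!
# P352R, block Tw: twisted wedge duality (helper89)
-/

set_option linter.all false

noncomputable section

namespace Vale.Agent.P352R.Tw

open Vale.Agent.P352 Vale.Agent.P352.GF Vale.Agent.P352.BW Vale.Agent.P352.H246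
open Vale.Agent.P352.H496 Vale.Agent.P352.H755 Vale.Agent.P352.H15
open Vale.Agent.P352X Vale.Agent.P352X.EG Vale.Agent.P352X.EG.Bws
open Vale.Agent.P352X.EB (W0 W1)
open Vale.Agent.P132 (ModData)
open UniformSpace (Completion)

variable {D : Type*} [NormedAddCommGroup D] [InnerProductSpace ℂ D] {c : Cg D}

/-- the boosts, without the sign -/
def Vb (c : Cg D) (τ : ℝ) : Completion D →L[ℂ] Completion D :=
  (gb c (τ / 2)).U c * (gb c (τ / 2)).U c

theorem one1 (t : E0 c) (E : ModData (M0 c) c.Om) {e : Bool} {k : Rp} {Φ : Fin k.n → Fld D}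
    (hΦ : IsMf c.Q k Φ) (hP : ∀ a, EG.Pa c e (Φ a)) (τ : ℝ) (a : Fin k.n) {f : Fn}
    (hf : In W0 f) : E.U τ (Φ a f c.Q.vac : D) = Vb c τ (Φ a f c.Q.vac : D) := by
  classical
  obtain ⟨W, σ, hW⟩ := rpx_row.ex k
  choose Φ' h1 h2 using fun a => c.Q.adj _ (hΦ.1 a)
  have b := bws_row t rpx_row (og_row c) (sst_row _) E e k W σ Φ Φ' hW hΦ hP
    (fun a => ⟨h1 a, h2 a⟩) τ (Pi.single a 1) f hf
  obtain ⟨u, hu⟩ : ∃ u : ℝ → Bool, u = fun τ : ℝ => decide (k.ρ (T.bq va vb τ) ≠ W τ) := ⟨_, rfl⟩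
  have hs : ∀ τ : ℝ, k.ρ (T.bq va vb τ) = EG.sg (u τ) • W τ := fun τ => by
    by_cases h : k.ρ (T.bq va vb τ) = W τ
    · simp [hu, h, EG.sg]
    · rw [show u τ = true by simp [hu, h], (hW.rho τ).resolve_left h]
      simp [EG.sg]
  have v : Vs c u (τ / 2) (Vs c u (τ / 2) (ov c Φ (Pi.single a 1) f)) =
      Vb c τ (ov c Φ (Pi.single a 1) f) := by
    rw [Vs, Vs, map_smul, smul_smul, sg_sq, one_smul]
    rfl
  have o : ov c Φ (Pi.single a 1) f = (Φ a f c.Q.vac : D) := by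
    rw [ov, Finset.sum_eq_single a (fun b _ hb => by rw [Pi.single_eq_of_ne hb, zero_smul])
      (fun h => absurd (Finset.mem_univ a) h), Pi.single_eq_same, one_smul]
  rw [← o, ← v, b, cov t.sg hΦ hW hs _ _ hf.1, cov t.sg hΦ hW hs _ _ (T.test_lor (lor _) hf.1),
    Matrix.mulVec_mulVec, ← hW.add, bi_eq]
  congr 1
  · congr 2
    push_cast
    ring
  · funext y
    show f _ = f _
    rw [bq_bq, show -(τ / 2) + -(τ / 2) = -τ by ring]

theorem one2 (t : E0 c) (E : ModData (M0 c) c.Om) {k : Rp} {Φ : Fin k.n → Fld D}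
    (h : IsMf c.Q k Φ) (τ : ℝ) (a : Fin k.n) {f : Fn} (hf : In W0 f) :
    E.U τ (Φ a f c.Q.vac : D) = Vb c τ (Φ a f c.Q.vac : D) := by
  choose P h1 h2 h3 h4 using fun a => Fsg.parts t (h.1 a)
  have hq : ∀ e a, c.Q.fld (P a e) ∧ EG.Pa c e (P a e) := fun e a => by
    cases e
    · exact ⟨c.Q.bose_fld _ (h1 a), fun f v hf => by
        rw [c.hN.bose _ f v (h1 a) hf]; simp [EG.sg]⟩
    · exact ⟨(h2 a).1, fun f v hf => ((h2 a).2 f v hf).trans (by simp [EG.sg])⟩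
  have hm : ∀ e, IsMl c.Q k fun a => P a e := fun e a L f v hL hf => by
    let W : D →ₗ[ℂ] D := ⟨⟨c.Q.U 1 L 0, U_add one_pos hL 0⟩, U_smul one_pos hL 0⟩
    have hW : ∀ z, Fsg.gl t (W z) = W (Fsg.gl t z) := fun z => (c.hN.GU 1 L 0 z one_pos hL).symm
    have t1 := Ap.test_sim one_pos hL 0 hf
    have e1 : ∀ z, Φ a f (c.Q.U 1 L 0 z) =
        ∑ b, k.ρ L b a • W (Φ b (fun x => f (sim 1 L 0 x)) z) := fun z => h.2 a L f z hL hf
    show _ = ∑ b, _ • W _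
    simp only [h4 _ _ _ _ t1, h4 a e f _ hf, ← c.hN.GU 1 L 0 v one_pos hL, e1, map_sum, map_smul,
      map_add, hW, Finset.smul_sum, ← Finset.sum_add_distrib]
    exact Finset.sum_congr rfl fun b _ => by module
  have k (e : Bool) := one1 t E (Φ := fun a => P a e) ⟨fun a => (hq e a).1, hm e⟩
    (fun a => (hq e a).2) τ a hf
  rw [h3 a f _ hf.1, Fintype.sum_bool, Completion.coe_add, map_add, map_add, k, k]

theorem one3 (t : E0 c) (m : MfAll c.Q) (E : ModData (M0 c) c.Om) {B : Fld D} (hB : c.Q.fld B)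
    (τ : ℝ) {f : Fn} (hf : In W0 f) : E.U τ (B f c.Q.vac : D) = Vb c τ (B f c.Q.vac : D) := by
  obtain ⟨n, C, h, e⟩ := m B hB
  rw [e f _ hf.1, EB.Fin'.coe_sum, map_sum, map_sum]
  refine Finset.sum_congr rfl fun i _ => ?_
  obtain ⟨k, Φ, a, p, q⟩ := h i
  rw [q]
  exact one2 t E p τ a hf

theorem vb_uni (t : E0 c) (τ : ℝ) : Vb c τ ∈ unitary (Completion D →L[ℂ] Completion D) :=
  mul_mem (t.sg.uni _) (t.sg.uni _)

theorem vb_alg (t : E0 c) (τ : ℝ) {O : Set V} (i : ∀ s, (gb c s).act '' O = O)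
    (X : Completion D →L[ℂ] Completion D) : X ∈ c.N O ↔ Vb c τ * X * star (Vb c τ) ∈ c.N O := by
  rw [t.sg.alg (gb c (τ / 2)) O X, i, t.sg.alg (gb c (τ / 2)) O _, i, Vb, star_mul]
  simp only [mul_assoc]

/-- **the theorem of Bisognano and Wichmann for graded nets** -/
theorem bw (t : E0 c) (m : MfAll c.Q) (E : ModData (M0 c) c.Om) (τ : ℝ) : E.U τ = Vb c τ := by
  have u := vb_uni t τ
  have i (z) : E.U (-τ) (E.U τ z) = z := E.U_neg_apply τ z
  have ov : Vb c τ c.Om = c.Om := by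
    show (gb c _).U c ((gb c _).U c _) = _
    rw [(t.sg.vac _).1, (t.sg.vac _).1]
  have z0 : (E.U (-τ) * Vb c τ) c.Om = c.Om := by
    show E.U (-τ) (Vb c τ _) = _
    rw [ov, E.U_xi]
  have k := rs_fix c.Q (E.U (-τ) * Vb c τ) z0 (Ap.open_wdg va vb 0) (SGx.wne null_vb null_va
    (by rw [md_comm]; exact md_ab)) fun B f v hB hf hv => by
      obtain ⟨B', hB', ad⟩ := c.Q.adj B hB
      refine prod_fix (M0 c) c.Q.vac _ (fun z w => ?_) (fun Y hY => ?_) z0 t.sg.dense (B f)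
        (B' (bar f)) (fun v w => ad f v w hf.1) (c.hN.fld W0 B f hB hf) ?_ v hv
      · refine ContinuousLinearMap.inner_map_map_of_mem_unitary (mul_mem ?_ u) z w
        rw [Unitary.mem_iff, E.star_U, neg_neg]
        exact ⟨E.U_mul_U_neg τ, E.U_neg_mul_U τ⟩
      · refine ⟨star (Vb c τ) * E.sg τ Y * Vb c τ, (JCb.comm_conj u (vb_alg t τ img) _).2 ?_,
          fun z => ?_⟩
        · rw [← mul_assoc, ← mul_assoc, u.2, one_mul, mul_assoc, u.2, mul_one]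
          exact E.sg_mem_commutant hY τ
        · show E.U (-τ) ((Vb c τ * star (Vb c τ)) (E.U τ (Y (E.U (-τ) (Vb c τ z))))) = _
          rw [u.2, ContinuousLinearMap.one_apply, i]
          rfl
      · show E.U (-τ) (Vb c τ _) = _
        rw [← one3 t m E hB' τ (in_bar hf), i]
  ext z
  rw [← E.U_apply_neg τ (Vb c τ z)]
  exact congrArg _ (k z).symm

theorem img1 (s : ℝ) : (gb c s).act '' W1 = W1 := by
  have e (s : ℝ) : (gb c s).act '' W1 ⊆ W1 := by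
    have := T.H732W.bq_wdg null_vb null_va (by rw [md_comm]; exact md_ab) (-s)
    rwa [T.s_bq_swap va vb, neg_neg] at this
  exact (e s).antisymm fun x hx => ⟨_, e (-s) ⟨x, hx, rfl⟩, bq_inv (add_neg_cancel s) x⟩

theorem td0 (t : E0 c) (m : MfAll c.Q) : ∀ X ∈ (M0 c).commutant, X ∈ Kl c.Γ (c.N W1) := by
  obtain ⟨E⟩ := t.sg.md
  have g := t.sg.g2
  have s := t.sg.gs
  refine H820.le_of_inv' E _ (fun X hX => ?_) (fun τ X hX => ?_) ?_
  · have h := c.hN.loc va vb _ null_va null_vb md_ab ((mem_kl g s).1 hX)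
    have k := kz_conj g (one_mul 1) (kz (-1) c.Γ * X * kz 1 c.Γ)
    rw [← mul_assoc, ← mul_assoc, kz1 g, one_mul, mul_assoc, kz1 g, mul_one] at k
    rw [k]
    exact add_mem ((M0 c).commutant.toStarSubalgebra.smul_mem h.1 _)
      ((M0 c).commutant.toStarSubalgebra.smul_mem h.2 _)
  · have q : c.Γ * Vb c τ = Vb c τ * c.Γ := by
      rw [Vb, ← mul_assoc, t.sg.gU, mul_assoc, t.sg.gU, mul_assoc]
    have q' : c.Γ * star (Vb c τ) = star (Vb c τ) * c.Γ := by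
      have := congrArg star q
      rw [star_mul, star_mul, s] at this
      exact this.symm
    rw [mem_kl g s] at hX ⊢
    rw [ModData.sg, ← E.star_U, bw t m E]
    refine (congrArg (· ∈ c.N W1) ?_).mp ((vb_alg t τ img1 _).1 hX)
    simp only [← mul_assoc]
    rw [← kz_cm q, mul_assoc _ (kz 1 c.Γ), kz_cm q', ← mul_assoc]
  · refine (((Function.Surjective.denseRange (f := kz 1 c.Γ) fun z => ⟨kz (-1) c.Γ z,
      DFunLike.congr_fun (kz1 g) z⟩).dense_image (kz 1 c.Γ).continuous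
      (SGx.rs (c := c) (Ap.open_wdg vb va 0) (SGx.wne null_va null_vb md_ab)))).mono ?_
    rintro _ ⟨_, ⟨X, hX, rfl⟩, rfl⟩
    refine ⟨kz 1 c.Γ * X * kz (-1) c.Γ, (mem_kl g s).2 ?_, ?_⟩
    · rwa [← mul_assoc, ← mul_assoc, kz2 g, one_mul, mul_assoc, kz2 g, mul_one]
    · show kz 1 c.Γ (X (kz (-1) c.Γ _)) = _
      rw [kz_fix t.sg.gv]

theorem td1 (c : Cg D) (m : MfAll c.Q) {a b : V} (ha : IsNull a) (hb : IsNull b)
    (hab : GF.mdot a b = 1) (X : Completion D →L[ℂ] Completion D)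
    (hX : X ∈ (c.N (Wdg a b 0)).commutant) : X ∈ Kl c.Γ (c.N (Wdg b a 0)) := by
  have t := e0_thm c
  obtain ⟨L, hL, e⟩ := JCa.trans ha hb (hab ▸ one_pos)
  let g : Sh c := ⟨⟨1, L, 0, one_pos, hL⟩, false⟩
  have u := t.sg.uni g
  have a0 (Y) : Y ∈ c.N W0 ↔ _ := t.sg.alg g W0 Y
  have a1 (Y) : Y ∈ c.N W1 ↔ _ := t.sg.alg g W1 Y
  rw [show g.act '' W0 = _ from (e 0).1] at a0
  rw [show g.act '' W1 = _ from (e 0).2] at a1
  have k := (mem_kl t.sg.g2 t.sg.gs).1 (td0 t m (star (g.U c) * X * g.U c)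
    ((JCb.comm_conj u a0 _).2 (by
      rwa [← mul_assoc, ← mul_assoc, u.2, one_mul, mul_assoc, u.2, mul_one])))
  refine (mem_kl t.sg.g2 t.sg.gs).2 ((congrArg (· ∈ c.N (Wdg b a 0)) ?_).mp ((a1 _).1 k))
  simp only [← mul_assoc]
  rw [← kz_cm (t.sg.gU g), mul_assoc _ (g.U c) (star _), u.2, mul_one, mul_assoc _ (g.U c),
    ← kz_cm (t.sg.gU g), ← mul_assoc, mul_assoc _ (g.U c), u.2, mul_one]

/-- **twisted wedge duality** -/
theorem td {R : Theory D} {G : D → D} {A : (V → V) → D → D} {Γ : Completion D →L[ℂ] Completion D}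
    {N : Set V → VonNeumannAlgebra (Completion D)} (h : P352R.G.LNg R G A Γ N) (m : P.MfA R) {a b : V}
    (ha : P.IsNull a) (hb : P.IsNull b) (hab : GF.mdot a b = 1)
    (X : Completion D →L[ℂ] Completion D) (hX : X ∈ (N (P.Wdg a b 0)).commutant) :
    X + Γ * X * Γ ∈ N (P.Wdg b a 0) ∧ (X - Γ * X * Γ) * Γ ∈ N (P.Wdg b a 0) :=
  have t := e0_thm ⟨R, G, A, Γ, N, Br.lng.1 h⟩
  (kl_iff t.sg.g2 t.sg.gs (h.gam _)).1
    (td1 ⟨R, G, A, Γ, N, Br.lng.1 h⟩ (Br.mfa.1 m) ha hb hab X hX)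

end Vale.Agent.P352R.Tw
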