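import Vale.Agent.P352W.Net.Vn

/-!
# P352R, block Tw: the Klein transformation (helper89)
-/

set_option linter.all false

noncomputable section

namespace Vale.Agent.P352R.Tw

open P352W.Net
open Complex (I)

variable {H : Type*} [NormedAddCommGroup H] [InnerProductSpace ℂ H] [CompleteSpace H]
  {Γ X Y : H →L[ℂ] H} {N : VonNeumannAlgebra H}

/-- the Klein operator, and its inverse for `e = -1` -/
def kz (e : ℂ) (Γ : H →L[ℂ] H) : H →L[ℂ] H := ((1 + e * I) / 2 : ℂ) • 1 + ((1 - e * I) / 2 : ℂ) • Γ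

theorem kz_conj (g : Γ * Γ = 1) {e : ℂ} (h : e * e = 1) (X : H →L[ℂ] H) :
    kz e Γ * X * kz (-e) Γ =
      (1 / 2 : ℂ) • (X + Γ * X * Γ) + (e * I / 2 : ℂ) • ((X - Γ * X * Γ) * Γ) := by
  have i : e * I * (e * I) = -1 := by linear_combination (I * I) * h + Complex.I_mul_I
  simp only [kz, add_mul, mul_add, sub_mul, smul_mul_assoc, mul_smul_comm, one_mul, mul_one,
    mul_assoc, g]
  match_scalars <;> first
    | linear_combination (1 / 4 : ℂ) * i
    | linear_combination (-1 / 4 : ℂ) * i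

theorem kz_inv (g : Γ * Γ = 1) {e : ℂ} (h : e * e = 1) : kz e Γ * kz (-e) Γ = 1 := by
  have := kz_conj g h 1
  rw [mul_one, mul_one, g, sub_self, zero_mul, smul_zero, add_zero] at this
  rw [this]
  module

theorem kz1 (g : Γ * Γ = 1) : kz 1 Γ * kz (-1) Γ = 1 := kz_inv g (one_mul 1)

theorem kz2 (g : Γ * Γ = 1) : kz (-1) Γ * kz 1 Γ = 1 := by
  have := kz_inv g (e := -1) (by norm_num)
  rwa [neg_neg] at this

theorem kz_star (s : star Γ = Γ) : star (kz 1 Γ) = kz (-1) Γ := by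
  simp only [kz, star_add, star_smul, star_one, s]
  congr 2 <;> simp [Complex.star_def, map_ofNat, sub_eq_add_neg]

theorem kz_star' (s : star Γ = Γ) : star (kz (-1) Γ) = kz 1 Γ := by rw [← kz_star s, star_star]

theorem kz_cm {e : ℂ} (c : Γ * X = X * Γ) : kz e Γ * X = X * kz e Γ := by
  simp only [kz, add_mul, mul_add, smul_mul_assoc, mul_smul_comm, one_mul, mul_one, c]

theorem kz_fix {e : ℂ} {z : H} (h : Γ z = z) : kz e Γ z = z := by
  simp only [kz, ContinuousLinearMap.add_apply, ContinuousLinearMap.smul_apply,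
    ContinuousLinearMap.one_apply, h]
  module

/-- the twisted algebra -/
def Kl (Γ : H →L[ℂ] H) (N : VonNeumannAlgebra H) : VonNeumannAlgebra H :=
  cmt ((fun y => kz 1 Γ * y * kz (-1) Γ) '' N.commutant)

theorem mem_kl (g : Γ * Γ = 1) (s : star Γ = Γ) : Y ∈ Kl Γ N ↔ kz (-1) Γ * Y * kz 1 Γ ∈ N := by
  have a (x : H →L[ℂ] H) : kz 1 Γ * (kz (-1) Γ * x) = x := by rw [← mul_assoc, kz1 g, one_mul]
  have b (x : H →L[ℂ] H) : kz (-1) Γ * (kz 1 Γ * x) = x := by rw [← mul_assoc, kz2 g, one_mul]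
  rw [Kl, mem_cmt (by
    rintro _ ⟨y, hy, rfl⟩
    exact ⟨star y, star_mem hy, by simp only [star_mul, kz_star s, kz_star' s, mul_assoc]⟩),
    ← VonNeumannAlgebra.commutant_commutant N, VonNeumannAlgebra.mem_commutant_iff,
    VonNeumannAlgebra.commutant_commutant]
  constructor
  · intro h y hy
    have := congrArg (fun x => kz (-1) Γ * x * kz 1 Γ) (h _ ⟨y, hy, rfl⟩)
    simpa only [mul_assoc, b, kz2 g, mul_one] using this
  · rintro h _ ⟨y, hy, rfl⟩
    have := congrArg (fun x => kz 1 Γ * x * kz (-1) Γ) (h y hy)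
    simpa only [mul_assoc, a, kz1 g, mul_one] using this

/-- the twisted algebra of a graded algebra -/
theorem kl_iff (g : Γ * Γ = 1) (s : star Γ = Γ) (n : ∀ X ∈ N, Γ * X * Γ ∈ N) :
    Y ∈ Kl Γ N ↔ Y + Γ * Y * Γ ∈ N ∧ (Y - Γ * Y * Γ) * Γ ∈ N := by
  have k := kz_conj g (e := -1) (by norm_num) Y
  rw [neg_neg] at k
  have gg (x : H →L[ℂ] H) : Γ * (Γ * x) = x := by rw [← mul_assoc, g, one_mul]
  rw [mem_kl g s, k]
  refine ⟨fun h => ⟨?_, ?_⟩, fun h => add_mem (N.toStarSubalgebra.smul_mem h.1 _)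
    (N.toStarSubalgebra.smul_mem h.2 _)⟩
  · refine (congrArg (· ∈ N) ?_).mp (add_mem h (n _ h))
    simp only [add_mul, mul_add, sub_mul, mul_sub, smul_mul_assoc, mul_smul_comm, mul_assoc, g, gg,
      mul_one]
    module
  · refine (congrArg (· ∈ N) ?_).mp (N.toStarSubalgebra.smul_mem (sub_mem h (n _ h)) I)
    simp only [add_mul, mul_add, sub_mul, mul_sub, smul_mul_assoc, mul_smul_comm, mul_assoc, g, gg,
      mul_one]
    match_scalars <;> first
      | ring1
      | linear_combination Complex.I_mul_I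
      | linear_combination -Complex.I_mul_I

end Vale.Agent.P352R.Tw
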