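import Vale.Agent.P352R.Le80.Net
import Vale.Agent.P352X.Api2d
import Vale.Agent.P352X.Api3b

/-!
# P352R, block Tw: the graded local algebra from the net of a subtheory (helper80)
-/

set_option autoImplicit false
set_option linter.all false

noncomputable section

namespace Vale.Agent.P352R.Tw

open P352 GF P352R.P P352R.G P352W.Net Le80
open UniformSpace (Completion)

section alg

variable {H : Type*} [NormedAddCommGroup H] [InnerProductSpace ℂ H] [CompleteSpace H]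
  {Γ X Y : H →L[ℂ] H} {N : VonNeumannAlgebra H}

/-- the even parts, and the odd parts times the grading -/
def tw (Γ : H →L[ℂ] H) (N : VonNeumannAlgebra H) : Set (H →L[ℂ] H) :=
  {Y | ∃ y ∈ N, Y = y + Γ * y * Γ ∨ Y = (y - Γ * y * Γ) * Γ}

theorem tw_star (g2 : Γ * Γ = 1) (gs : star Γ = Γ) : ∀ Y ∈ tw Γ N, star Y ∈ tw Γ N := by
  rintro _ ⟨y, m, rfl | rfl⟩
  · exact ⟨star y, star_mem m, .inl (by simp only [star_add, star_mul, gs, mul_assoc])⟩
  · refine ⟨-star y, neg_mem (star_mem m), .inr ?_⟩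
    simp only [star_sub, star_mul, gs, mul_sub, sub_mul, mul_neg, neg_mul, mul_assoc, g2, mul_one]
    abel

theorem mem_tw (g2 : Γ * Γ = 1) (gs : star Γ = Γ) : X ∈ cmt (tw Γ N) ↔
    X + Γ * X * Γ ∈ N.commutant ∧ (X - Γ * X * Γ) * Γ ∈ N.commutant := by
  rw [mem_cmt (tw_star g2 gs), VonNeumannAlgebra.mem_commutant_iff,
    VonNeumannAlgebra.mem_commutant_iff]
  constructor
  · intro h
    have k := fun y (m : y ∈ N) => Lg.tw_symm g2 (h _ ⟨y, m, .inl rfl⟩) (h _ ⟨y, m, .inr rfl⟩)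
    exact ⟨fun y m => (k y m).1.symm, fun y m => (k y m).2.symm⟩
  · rintro ⟨h1, h2⟩ _ ⟨y, m, rfl | rfl⟩
    · exact (Lg.tw_symm g2 (h1 y m).symm (h2 y m).symm).1
    · exact (Lg.tw_symm g2 (h1 y m).symm (h2 y m).symm).2

theorem ev_ev (g2 : Γ * Γ = 1) : Γ * (X + Γ * X * Γ) * Γ = X + Γ * X * Γ := by
  simp only [mul_add, add_mul, ← mul_assoc, g2, one_mul]
  rw [mul_assoc X, g2, mul_one, add_comm]

theorem od_od (g2 : Γ * Γ = 1) : Γ * ((X - Γ * X * Γ) * Γ) * Γ = -((X - Γ * X * Γ) * Γ) := by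
  simp only [mul_sub, sub_mul, ← mul_assoc, g2, one_mul]
  simp only [mul_assoc, g2, mul_one, neg_sub]

theorem com_gam (g2 : Γ * Γ = 1) (gm : ∀ y ∈ N, Γ * y * Γ ∈ N) (m : X ∈ N.commutant) :
    Γ * X * Γ ∈ N.commutant := VonNeumannAlgebra.mem_commutant_iff.2 fun y k => by
  have e := VonNeumannAlgebra.mem_commutant_iff.1 m _ (gm y k)
  calc y * (Γ * X * Γ) = Γ * (Γ * y * Γ * X) * Γ := by simp only [← mul_assoc, g2, one_mul]
    _ = _ := by rw [e]; simp only [mul_assoc, g2, mul_one]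

theorem half (N : VonNeumannAlgebra H) (h : X + X ∈ N) : X ∈ N := by
  have := N.toStarSubalgebra.smul_mem h (2⁻¹ : ℂ)
  rwa [← two_smul ℂ X, smul_smul, inv_mul_cancel₀ two_ne_zero, one_smul] at this

theorem tw_com (g2 : Γ * Γ = 1) (gs : star Γ = Γ) (gm : ∀ y ∈ N, Γ * y * Γ ∈ N)
    (m : Y ∈ (cmt (tw Γ N)).commutant) : Y + Γ * Y * Γ ∈ N ∧ (Y - Γ * Y * Γ) * Γ ∈ N := by
  have k : ∀ W ∈ N.commutant, (Y + Γ * Y * Γ) * W = W * (Y + Γ * Y * Γ) ∧
      (Y - Γ * Y * Γ) * Γ * W = W * ((Y - Γ * Y * Γ) * Γ) := fun W w => by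
    have a := add_mem w (com_gam g2 gm w)
    have b := sub_mem w (com_gam g2 gm w)
    refine Lg.tw_symm g2 (VonNeumannAlgebra.mem_commutant_iff.1 m _ ((mem_tw g2 gs).2 ?_))
      (VonNeumannAlgebra.mem_commutant_iff.1 m _ ((mem_tw g2 gs).2 ?_))
    · rw [ev_ev g2, sub_self, zero_mul]
      exact ⟨add_mem a a, zero_mem _⟩
    · rw [od_od g2, add_neg_cancel, sub_neg_eq_add, add_mul, mul_assoc _ Γ Γ, g2, mul_one]
      exact ⟨zero_mem _, add_mem b b⟩
  rw [← N.commutant_commutant]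
  exact ⟨VonNeumannAlgebra.mem_commutant_iff.2 fun W w => (k W w).1.symm,
    VonNeumannAlgebra.mem_commutant_iff.2 fun W w => (k W w).2.symm⟩

end alg

variable {D : Type*} [NormedAddCommGroup D] [InnerProductSpace ℂ D] {Q R : Theory D} {G : D → D}
  {A : (V → V) → D → D} {Γ X : Completion D →L[ℂ] Completion D} {O S S' : Set V}
  {N : Set V → VonNeumannAlgebra (Completion D)} {s : ℝ} {L : Ix → V}

theorem gs (g : Gr Q G) (ex : ∀ v : D, Γ v = (G v : D)) : star Γ = Γ :=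
  Lg.extC fun v => ext_inner_right ℂ fun z => by
    rw [ContinuousLinearMap.star_eq_adjoint, ContinuousLinearMap.adjoint_inner_left, G_in g ex, ex]

theorem back (h : LNg R G A Γ N) (hs : 0 < s) (hL : IsLor L) (y : V) (le : sim s L y '' O ⊆ S)
    (sp : ∀ x ∈ S, ∀ z ∈ S', mdot (x - z) (x - z) < 0) (m : X ∈ N S') :
    ∃ X' ∈ N (cc O), Lg.W R hs hL y * X' = X * Lg.W R hs hL y := by
  have g := h.toGr
  have g2 := Lg.g2 g h.ext
  have hs' := inv_pos.2 hs
  have hL' := H246.isLor_linv hL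
  obtain ⟨X', m', k⟩ := h.cov s⁻¹ (H246.linv L) (-(sim s⁻¹ (H246.linv L) 0 y)) S' X m hs' hL'
  have m2 : X' ∈ N (cc O) := h.mono _ _ (by
    rintro _ ⟨z, hz, rfl⟩ x hx
    have a := sp _ (le ⟨x, hx, rfl⟩) z hz
    rw [← BW.ue_sim hs hL y z] at a
    generalize sim s⁻¹ (H246.linv L) (-(sim s⁻¹ (H246.linv L) 0 y)) z = t at a ⊢
    have cf := P352X.conf_sim hs hL
    rw [show sim s L y x - sim s L y t = sim s L 0 (x - t) from by
      rw [cf.lin.map_sub]; funext n; simp [sim], cf.md] at a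
    exact lt_of_not_ge fun q => absurd a (not_lt.2 (mul_nonneg cf.pos.le q))) X' m'
  have k' : X' * Lg.W R hs' hL' (-(sim s⁻¹ (H246.linv L) 0 y)) =
      Lg.W R hs' hL' (-(sim s⁻¹ (H246.linv L) 0 y)) * X := ContinuousLinearMap.ext k
  have e : sim s L y (-(sim s⁻¹ (H246.linv L) 0 y)) = 0 := by
    have h1 := BW.ue_sim hs hL y 0
    have h2 : sim s⁻¹ (H246.linv L) (-(sim s⁻¹ (H246.linv L) 0 y)) 0 =
        -(sim s⁻¹ (H246.linv L) 0 y) := by
      funext n; simp [sim]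
    rwa [h2] at h1
  have o : Lg.W R (mul_pos hs hs') (BW.ue_lor hL hL') (sim s L y (-(sim s⁻¹ (H246.linv L) 0 y))) = 1 :=
    Lg.extC fun v => by
      rw [Lg.W_coe, H755.linv_id hL, mul_inv_cancel₀ hs.ne', e, H755.Uone]; rfl
  have gw := Lg.gW g h.ext hs hL y
  have gw' := Lg.gW g h.ext hs' hL' (-(sim s⁻¹ (H246.linv L) 0 y))
  have ww := Lg.WW g h.ext hs hL hs' hL' y (-(sim s⁻¹ (H246.linv L) 0 y))
  have cn := fun Y Y' => Lg.canc g hs' hL' (-(sim s⁻¹ (H246.linv L) 0 y)) (Y := Y) (Y' := Y')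
  rw [o, mul_one] at ww
  generalize Lg.W R hs' hL' (-(sim s⁻¹ (H246.linv L) 0 y)) = W' at *
  generalize Lg.W R hs hL y = W at *
  rcases ww with ww | ww
  · exact ⟨X', m2, cn _ _ (by rw [mul_assoc, k', ← mul_assoc, ww, mul_assoc, ww, one_mul, mul_one])⟩
  · refine ⟨Γ * X' * Γ, h.gam _ _ m2, cn _ _ ?_⟩
    calc W * (Γ * X' * Γ) * W' = W * Γ * (X' * W') * Γ := by simp only [mul_assoc, gw']
      _ = Γ * (W * W') * X * Γ := by rw [k', ← gw]; simp only [mul_assoc]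
      _ = _ := by rw [ww, g2, one_mul, mul_assoc, ww]

theorem tr (h : LNg R G A Γ N) (sp : ∀ x ∈ S, ∀ z ∈ S', mdot (x - z) (x - z) < 0)
    (x : X ∈ P352R.G.Trf R O (cmt (tw Γ (N (cc O)))) S) :
    X + Γ * X * Γ ∈ (N S').commutant ∧ (X - Γ * X * Γ) * Γ ∈ (N S').commutant := by
  obtain ⟨s, L, y, Z, m, hs, hL, le, e⟩ := Lg.mem_trf.1 x
  have g2 := Lg.g2 h.toGr h.ext
  have gw := Lg.gW h.toGr h.ext hs hL y
  obtain ⟨a, b⟩ := (mem_tw g2 (gs h.toGr h.ext)).1 m
  have k : ∀ {X Z : Completion D →L[ℂ] Completion D}, X * Lg.W R hs hL y = Lg.W R hs hL y * Z →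
      Z ∈ (N (cc O)).commutant → X ∈ (N S').commutant := fun {X Z} e z =>
    VonNeumannAlgebra.mem_commutant_iff.2 fun Y m => by
      obtain ⟨Y', m', c⟩ := back h hs hL y le sp m
      refine Lg.canc h.toGr hs hL y ?_
      rw [mul_assoc, e, ← mul_assoc, ← c, mul_assoc, VonNeumannAlgebra.mem_commutant_iff.1 z Y' m',
        mul_assoc X, ← c, ← mul_assoc X, e, mul_assoc]
  have e' : Γ * X * Γ * Lg.W R hs hL y = Lg.W R hs hL y * (Γ * Z * Γ) := by
    rw [mul_assoc, gw, mul_assoc, ← mul_assoc X, e, ← mul_assoc, ← mul_assoc, gw]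
    simp only [mul_assoc]
  exact ⟨k (by rw [add_mul, e, e', mul_add]) a,
    k (by rw [mul_assoc, gw, ← mul_assoc, sub_mul, e, e', ← mul_sub, mul_assoc]) b⟩

/-- **the graded local algebra** -/
theorem lg (g : Gr Q G) (e : IsEnl R Q) (hN : LNg R G A Γ N)
    (td : ∀ a b X, IsNull a → IsNull b → mdot a b = 1 → X ∈ (N (Wdg a b 0)).commutant →
      X + Γ * X * Γ ∈ N (Wdg b a 0) ∧ (X - Γ * X * Γ) * Γ ∈ N (Wdg b a 0))
    (ν : ℕ → D → ℝ)
    (af : ∀ S (C C' : D → D) k (c : ℝ), (∀ v, ‖C v‖ ≤ c * ν k v) →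
      (∀ v w, inner ℂ (C v) w = inner ℂ v (C' w)) →
      (∀ F f v, R.fld F → In S f → C (F f v) = F f (C v)) → ∀ Y ∈ N S, ∀ v w : D,
        inner ℂ ((C' w : D) : Completion D) (Y v) =
          inner ℂ (w : Completion D) (Y ((C v : D) : Completion D)))
    (hb : ∀ B f, Q.fld B → In Set.univ f → ∃ k, ∃ c : ℝ, ∀ v, ‖B f v‖ ≤ c * ν k v)
    (n : O ∈ nhds 0) (b : Bornology.IsBounded O) : ∃ M, Lg1 Q G A Γ O M := by
  have ex := hN.ext
  have g2 := Lg.g2 g ex
  have gs := gs g ex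
  have u : P352R.G.Trf Q = P352R.G.Trf R := by
    funext O M W
    unfold P352R.G.Trf P352R.P.Ue
    rw [e.U]
  refine ⟨cmt (tw Γ (N (cc O))), g, by rw [e.vac]; exact hN.vac, hN.add, by
    unfold P352R.P.Gnr; rw [e.U]; exact hN.der, ex, n, b, fun B f hB hf => ?_, fun X m => ?_,
    fun a c ha hc hac X x Y y => ?_⟩
  · obtain ⟨B', hB', ad⟩ := Q.adj B hB
    refine ⟨B' (bar f), fun v w => ad f v w hf.1, fun Y hY => ?_⟩
    obtain ⟨y1, y2⟩ := tw_com g2 gs (hN.gam _) hY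
    have sp : ∀ {f k}, In O f → In (cc O) k → Sep f k := fun hf hk x hx y hy =>
      hk.2.2 hy x (hf.2.2 hx)
    have ev : ∀ Z ∈ N (cc O), ∀ B B' f, Q.bose B → IsAdj B B' → In O f →
        wc Z (B f) (B' (bar f)) := fun Z z B B' f p ad hf => by
      obtain ⟨k, c, q⟩ := hb B f (Q.bose_fld _ p) (univ hf)
      exact af _ _ _ k c q (fun v w => ad f v w hf.1) (fun F k v r hk =>
        Q.loc B F f k v p (e.fld F r) hf.1 hk.1 (sp hf hk)) Z z
    have od : ∀ Z ∈ N (cc O), ∀ B B' f, Fer Q G B → IsAdj B B' → In O f → ∀ v w : D,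
        inner ℂ ((B' (bar f) w : D) : Completion D) ((Γ * Z * Γ) v) =
          inner ℂ (w : Completion D) (Z ((B f v : D) : Completion D)) := fun Z z B B' f p ad hf v w => by
      obtain ⟨k, c, q⟩ := hb B f p.1 (univ hf)
      have := af (cc O) (fun v => B f (G v)) (fun w => G (B' (bar f) w)) k c
        (fun v => by rw [p.2 _ _ hf.1, norm_neg]; exact (G_norm g _).trans_le (q v))
        (fun v w => by rw [ad _ _ _ hf.1, g.herm]) (fun F k v r hk => by
          obtain ⟨E, E', a, a', d⟩ := g.split F (e.fld F r)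
          rw [d _ _ hk.1, d _ _ hk.1, show ∀ x y, G (x + y) = G x + G y from (GG g).map_add,
            H755.fadd p.1 hf.1, ← g.bose _ _ _ a hk.1,
            Q.loc E B k f _ a p.1 hk.1 hf.1 (H15.sep_symm (sp hf hk)),
            ← neg_neg (G (E' k v)), ← a'.2 _ _ hk.1,
            show ∀ x, B f (-x) = -B f x from (lm p.1 hf.1).map_neg,
            g.anti B E' f k _ p a' hf.1 hk.1 (sp hf hk), neg_neg]) Z z (G v) w
      simp only [g.inv] at this
      rw [ContinuousLinearMap.mul_apply, ContinuousLinearMap.mul_apply, ex, G_in g ex, this]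
    have hy : Y = (2⁻¹ : ℂ) • ((Y + Γ * Y * Γ) + (Y - Γ * Y * Γ) * Γ * Γ) := by
      rw [mul_assoc _ Γ Γ, g2, mul_one, add_add_sub_cancel, ← two_smul ℂ Y, smul_smul,
        inv_mul_cancel₀ two_ne_zero, one_smul]
    have cb : ∀ {C C' : D → D}, wc (Y + Γ * Y * Γ) C C' → wc ((Y - Γ * Y * Γ) * Γ * Γ) C C' →
        wc Y C C' := fun p q v w => by
      rw [hy]
      simp only [ContinuousLinearMap.smul_apply, inner_smul_right]
      rw [ContinuousLinearMap.add_apply (Y + _), ContinuousLinearMap.add_apply (Y + _),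
        inner_add_right, inner_add_right, p, q]
    refine mem_wc g (S := O) (fun B B' f p _ ad hf => cb (ev _ y1 B B' f p ad hf) fun v w => ?_)
      (fun B B' f p _ ad hf => cb (fun v w => ?_) fun v w => ?_) B B' f hB hB' ad hf
    · rw [ContinuousLinearMap.mul_apply _ Γ, ContinuousLinearMap.mul_apply _ Γ ((B f v : D) : Completion D), ex,
        ex, ev _ y2 B B' f p ad hf, g.bose _ _ _ p hf.1]
    · rw [← od _ y1 B B' f p ad hf, ev_ev g2]
    · have := od _ y2 B B' f p ad hf (G v) w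
      rw [od_od g2, p.2 _ _ hf.1, Completion.coe_neg, map_neg, ContinuousLinearMap.neg_apply,
        inner_neg_right, inner_neg_right] at this
      rw [ContinuousLinearMap.mul_apply _ Γ, ContinuousLinearMap.mul_apply _ Γ ((B f v : D) : Completion D), ex,
        ex]
      exact neg_injective this
  · obtain ⟨p, q⟩ := (mem_tw g2 gs).1 m
    have e0 : Γ * (Γ * X * Γ) * Γ = X := by
      rw [← mul_assoc, ← mul_assoc, g2, one_mul, mul_assoc, g2, mul_one]
    refine (mem_tw g2 gs).2 ?_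
    rw [e0, add_comm, ← neg_sub, neg_mul]
    exact ⟨p, neg_mem q⟩
  · rw [u] at x y
    obtain ⟨x1, x2⟩ := tr hN (S' := Wdg a c 0) (fun _ p _ q => P352X.Ap.wdg_opp hc ha p q) x
    obtain ⟨y1, y2⟩ := tr hN (S' := Wdg c a 0) (fun _ p _ q => P352X.Ap.wdg_opp ha hc p q) y
    have p := (td a c _ ha hc hac x1).1
    have q := (td a c _ ha hc hac x2).2
    rw [ev_ev g2] at p
    rw [od_od g2, sub_neg_eq_add, add_mul, mul_assoc _ Γ Γ, g2, mul_one] at q
    have m : X ∈ N (Wdg c a 0) := half _ (by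
      have := add_mem (half _ p) (half _ q)
      rwa [add_add_sub_cancel] at this)
    exact Lg.tw_symm g2 (VonNeumannAlgebra.mem_commutant_iff.1 y1 X m).symm
      (VonNeumannAlgebra.mem_commutant_iff.1 y2 X m).symm

end Vale.Agent.P352R.Tw
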