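import Vale.Agent.P352R.Tg.Lg
import Vale.Agent.P352R.Tw.Td
import Vale.Agent.P352R.Tw.Sp
import Vale.Agent.P352R.Cf.All

/-!
# P352R, block Tw: mixed energy bounds give a graded local algebra (helper89)
-/

set_option linter.all false

namespace Vale.Agent.P352R.Tw

open P352 GF P352R.P P352R.G
open UniformSpace (Completion)
variable {D : Type*} [NormedAddCommGroup D] [InnerProductSpace ℂ D]

theorem lin2 (Q R : Theory D) (G : D → D) (A : (V → V) → D → D) (g : Gr Q G) (g' : Gr R G)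
    (sub : IsEnl R Q) (vac : G Q.vac = Q.vac)
    (add : ∀ r r' (c : ℝ) X X' v, IsSim r X → IsSim r' X' →
      A (fun z => X z + c • X' z) v = A X v + (c : ℂ) • A X' v) (der : Gnr Q A)
    (c : CntF R ∨ MfA R ∧ FSL R) (l : LEB R) (e : EBd Q) :
    ∃ Γ, ∀ O ∈ nhds (0 : V), Bornology.IsBounded O → ∃ M, Lg1 Q G A Γ O M := by
  have der' : Gnr R A := by unfold Gnr; rw [← sub.U]; exact der
  obtain ⟨Γ, h⟩ := Tg.lngN g' (sub.vac ▸ vac) add der' c l
  have m : MfA R := c.elim (fun c => Br.mfa.2 (Cf.cfg_all R G A Γ _ (Br.lng.1 h) c).1) And.left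
  refine ⟨Γ, fun O n b => ⟨_, Tg.lg1 g sub der h l (fun a b X ha hb hab => td h m ha hb hab X)
    (fun B hB f hf => ?_) n b⟩⟩
  obtain ⟨k, p⟩ := e B hB
  obtain ⟨C, q⟩ := p f hf
  obtain ⟨K, r, s⟩ := en_le (Tg.dr h.der) k
  have u (j : ℕ) : en Q j = en R j := by
    have : Dv Q = Dv R := by funext m v; unfold Dv; rw [sub.U]
    induction j with
    | zero => rfl
    | succ j ih => funext v; simp only [en, ih, this]
  refine ⟨k, |C| * K, by positivity, fun v => (q v).trans ?_⟩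
  rw [u, mul_assoc]
  exact (mul_le_mul_of_nonneg_right (le_abs_self C) (Br.en_eq R k v ▸ H246.en_nonneg _ _)).trans
    (mul_le_mul_of_nonneg_left (s v) (abs_nonneg C))

end Vale.Agent.P352R.Tw
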